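import Mathlib
import Vale.Agent.P313.NW.Ns

/-!
The canonical stage map: pure definitions.

A stage datum consists of the numerators `A v x` (over `q ^ b`) of a stochastic matrix on the states
`0, ..., n - 1`, the weights `q ^ c v` and the counters `k v`. The real kernels `P_a^Z (v, x)` and
the loss enter through the structure `Sem`; everything else is integer arithmetic.
-/

namespace Vale.Agent.P313.NW.BP

open Finset

/-- Numerical parameters. The states are `0, ..., n - 1`, the last one, `n - 1`, is the sink. -/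
structure Par where
  /-- number of states -/
  n : ℕ
  /-- a prime -/
  q : ℕ
  /-- the entries of the matrices have denominator `q ^ b` -/
  b : ℕ
  /-- number of doublings in one stage -/
  r : ℕ
  /-- killing rate `2 ^ (-rk)` of one stage (`r'` in the paper proof) -/
  rk : ℕ
  /-- final value of the counters `k` -/
  K : ℕ
  /-- the scale of fixed point numbers is `2 ^ rk * q ^ b * Th1` -/
  Th1 : ℕ
  /-- number of offsets -/
  D : ℕ
  /-- the products have `2 ^ JF ≥ r` factors -/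
  JF : ℕ
  /-- the Neumann series has `2 ^ JN` terms -/
  JN : ℕ

/-- The scale of fixed point numbers. -/
def Par.Th (p : Par) : ℕ := 2 ^ p.rk * p.q ^ p.b * p.Th1

/-- The data of a stage. -/
structure SD where
  /-- numerators of the matrix, `A v x / q ^ b` is the probability of `v → x` -/
  A : ℕ → ℕ → ℕ
  /-- the weight of `v` is `q ^ (c v)` (up to normalisation) -/
  c : ℕ → ℕ
  /-- the stopping probability at `v` is `2 ^ (- rk * k v)` -/
  k : ℕ → ℕ

/-- The real quantities of a stage: the kernels `P_a^Z (v, x)` and the loss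
`∑ a < r, (h X_a^Z) (x) / h (x)`. -/
structure Sem where
  P : SD → (ℕ → Prop) → ℕ → ℕ → ℕ → ℝ
  loss : SD → (ℕ → Prop) → ℕ → ℝ

variable (p : Par) (S : Sem)

/-- Rounding up with an offset: `x ≤ up x / Th ≤ x + 2 / Th`. -/
noncomputable def up (o : ℕ) (x : ℝ) : ℕ := ⌊(p.Th : ℝ) * x + (o : ℝ) / p.D⌋₊ + 1

/-- The product `M 0 * M 1 * ... * M (m - 1)` of fixed point matrices on the states `0, ..., N - 1`,
as real numbers. -/
noncomputable def wr (N : ℕ) (M : ℕ → ℕ → ℕ → ℕ) : ℕ → ℕ → ℕ → ℝ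
  | 0, v, x => if v = x then 1 else 0
  | m + 1, v, x => ∑ y ∈ range N, wr N M m v y * ((M m y x : ℝ) / p.Th)

/-! ### The first exceptional set -/

/-- Rounded kernels without exceptional set. -/
noncomputable def P0 (d : SD) (o : ℕ → ℕ) (a v x : ℕ) : ℕ :=
  up p (o 0) (S.P d (fun _ => False) a v x)

/-- The factors `I + P_a`. -/
noncomputable def fac0 (d : SD) (o : ℕ → ℕ) (a v x : ℕ) : ℕ :=
  (if v = x then p.Th else 0) + (if a < p.r then P0 p S d o a v x else 0)

/-- The steps of the walk of kind `0`: the factor with the highest index comes first. -/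
noncomputable def st0 (d : SD) (o : ℕ → ℕ) (i : ℕ) : ℕ → ℕ → ℕ :=
  fac0 p S d o (2 ^ p.JF - 1 - i)

/-- The rounded product of the factors `I + P_a`. -/
noncomputable def G0 (d : SD) (o : ℕ → ℕ) (v x : ℕ) : ℕ :=
  up p (o 1) (wr p p.n (st0 p S d o) (2 ^ p.JF) v x)

/-- `q ^ b * (h N) (x)` with `h v = q ^ (c v - b)`. -/
def tot (d : SD) (x : ℕ) : ℕ := ∑ v ∈ range p.n, p.q ^ (d.c v - p.b) * d.A v x

/-- `Th * F (x)`. -/
noncomputable def Ft (d : SD) (o : ℕ → ℕ) (x : ℕ) : ℕ :=
  ∑ v ∈ range p.n, p.q ^ (d.c v - p.b) * G0 p S d o v x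

/-- The first exceptional set: `h N ≥ G h` or `F ≥ G h`, `G = q ^ 4`. -/
def Z1 (d : SD) (o : ℕ → ℕ) (x : ℕ) : Prop :=
  p.q ^ (4 + d.c x) ≤ tot p d x ∨ p.q ^ (4 + (d.c x - p.b)) * p.Th ≤ Ft p S d o x

/-! ### The second exceptional set -/

/-- Rounded loss. -/
noncomputable def lossR (d : SD) (o : ℕ → ℕ) (x : ℕ) : ℕ := up p (o 2) (S.loss d (Z1 p S d o) x)

/-- The exceptional set: `Z1` or loss at least `2 q ^ (-7)`. -/
def Zst (d : SD) (o : ℕ → ℕ) (x : ℕ) : Prop :=
  Z1 p S d o x ∨ 2 * p.Th ≤ lossR p S d o x * p.q ^ 7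

/-- The set which is avoided in this stage. -/
def Zs (d : SD) (o : ℕ → ℕ) (x : ℕ) : Prop := Zst p S d o x ∨ p.K ≤ d.k x

/-! ### The preconditioner and the Neumann series -/

/-- Rounded kernels avoiding `Zs`. -/
noncomputable def P2 (d : SD) (o : ℕ → ℕ) (a v x : ℕ) : ℕ := up p (o 3) (S.P d (Zs p S d o) a v x)

/-- `Th * κ ^ (2 ^ a)`, `κ = 1 - 2 ^ (-rk)`. -/
def kp : ℕ → ℕ
  | 0 => p.Th - p.Th / 2 ^ p.rk
  | a + 1 => kp a ^ 2 / p.Th

/-- The factors `I + κ ^ (2 ^ a) P_a`. -/
noncomputable def fac2 (d : SD) (o : ℕ → ℕ) (a v x : ℕ) : ℕ :=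
  (if v = x then p.Th else 0) +
    (if a < p.r then kp p a * P2 p S d o a v x / p.Th else 0)

/-- The steps of the walk of kind `2`. -/
noncomputable def st2 (d : SD) (o : ℕ → ℕ) (i : ℕ) : ℕ → ℕ → ℕ :=
  fac2 p S d o (2 ^ p.JF - 1 - i)

/-- The rounded product of the factors `I + κ ^ (2 ^ a) P_a`. -/
noncomputable def G2 (d : SD) (o : ℕ → ℕ) (v x : ℕ) : ℕ :=
  up p (o 4) (wr p p.n (st2 p S d o) (2 ^ p.JF) v x)

open Classical in
/-- `Th * (I - κ N_Z)`. -/
noncomputable def Lm (d : SD) (o : ℕ → ℕ) (v x : ℕ) : ℤ :=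
  (if v = x then (p.Th : ℤ) else 0) -
    (if Zs p S d o x then 0 else ((2 : ℤ) ^ p.rk - 1) * p.Th1 * d.A v x)

/-- `2 I - G L`. -/
def Hn (L G : ℕ → ℕ → ℤ) (v y : ℕ) : ℤ :=
  (if v = y then 2 * (p.Th : ℤ) else 0) - (∑ u ∈ range p.n, G v u * L u y) / (p.Th : ℤ)

/-- `Th * (2 I - G L)` with the preconditioner `G`. -/
noncomputable def Hm (d : SD) (o : ℕ → ℕ) (v y : ℕ) : ℤ :=
  Hn p (Lm p S d o) (fun v x => (G2 p S d o v x : ℤ)) v y

/-- `Th * (I - G L)`. -/
noncomputable def Em (d : SD) (o : ℕ → ℕ) (v y : ℕ) : ℤ :=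
  Hm p S d o v y - (if v = y then (p.Th : ℤ) else 0)

/-- The step of the walk for the Neumann series. The states are `4 x + 2 f + σ`, where `f = 0`
means running, `f = 1` means stopped, and `σ` is a sign. A running walk continues with `E` or stops
with `G`. -/
noncomputable def Xst (d : SD) (o : ℕ → ℕ) (w w' : ℕ) : ℕ :=
  if w / 2 % 2 = 0 then
    if w' / 2 % 2 = 0 then
      if w % 2 = w' % 2 then (Em p S d o (w / 4) (w' / 4)).toNat
      else (-Em p S d o (w / 4) (w' / 4)).toNat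
    else if w % 2 = w' % 2 then G2 p S d o (w / 4) (w' / 4) else 0
  else if w = w' then p.Th else 0

/-- The rounded positive (`σ = 0`) and negative (`σ = 1`) part of
`∑ j < 2 ^ JN, (I - G L) ^ j G`. -/
noncomputable def Xp (d : SD) (o : ℕ → ℕ) (σ v x : ℕ) : ℕ :=
  up p (o 5) (wr p (4 * p.n) (fun _ => Xst p S d o) (2 ^ p.JN) (4 * v) (4 * x + 2 + σ))

/-- The rounded inverse of `I - κ N_Z`. -/
noncomputable def Xc (d : SD) (o : ℕ → ℕ) (v x : ℕ) : ℤ :=
  (Xp p S d o 0 v x : ℤ) - (Xp p S d o 1 v x : ℤ)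

open Classical in
/-- `q ^ b * ((I - κ N_Z)⁻¹ N D_β) (v, x)`, rounded down. -/
noncomputable def Phi (d : SD) (o : ℕ → ℕ) (v x : ℕ) : ℤ :=
  (∑ y ∈ range p.n, Xc p S d o v y * (d.A y x : ℤ) *
    (if Zs p S d o x then 2 ^ p.rk else 1)) / ((p.Th : ℤ) * 2 ^ p.rk)

open Classical in
/-- The next stage. -/
noncomputable def next (d : SD) (o : ℕ → ℕ) : SD where
  A := fun v x =>
    if x + 1 = p.n then
      p.q ^ p.b - ∑ y ∈ range (p.n - 1), (Phi p S d o v y - 1).toNat
    else (Phi p S d o v x - 1).toNat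
  c := fun x => d.c x + if Zst p S d o x ∧ d.k x < p.K then 1 else 0
  k := fun x => d.k x + if Zs p S d o x then 0 else 1

/-- The first stage for a chain with two equally likely successors `cs v false`, `cs v true` of
each state `v` (the sink is absorbing). -/
def init (cs : ℕ → Bool → ℕ) : SD where
  A := fun v x =>
    if v + 1 < p.n then
      if x + 1 < p.n then
        ((if cs v false = x then 1 else 0) + (if cs v true = x then 1 else 0)) * (p.q ^ p.b / 2)
      else p.q ^ p.b - 2 * (p.q ^ p.b / 2)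
    else if x = v then p.q ^ p.b else 0
  c := fun _ => p.b
  k := fun v => if v + 1 = p.n then p.K else 0

/-- The canonical data for given offsets `o s 0, ..., o s 5`. -/
noncomputable def data (cs : ℕ → Bool → ℕ) (o : ℕ → ℕ → ℕ) : ℕ → SD
  | 0 => init p cs
  | s + 1 => next p S (data cs o s) (o s)

end Vale.Agent.P313.NW.BP
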