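import Vale.Agent.P313.NW.BP.Canon

/-!
Layout: numbers of the levels, formats of the queries, static digits.

Level `l = s * m + ph` with `m = nph = 18` phases per stage `s`.
Queries are nested `Nat.pair`s. `kd` is the kind: `0` (nothing avoided), `1` (`Z1` avoided),
`2` (`Zs` avoided).
-/

namespace Vale.Agent.P313.NW.BP

/-! ### Phases -/

/-- DATA. query `pair tag (pair v x)`: tag `0`: `A v x`, tag `1`: `c v`, tag `2`: `k v`. -/
def phData : ℕ := 0
/-- HOP. query `pair dir (pair u w)`: `dir = 0`: forward, `(u, w) = (v, z)`, value `pair x ρ`;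
`dir = 1`: backward, `(u, w) = (x, ρ)`, value `pair v z + 1`, or `0` if `tot x ≤ ρ`. -/
def phHop : ℕ := 1
/-- TOUR of kind `0`. query `pair a (pair v (pair x z))`; the token is `(x, z, tape)`. Value `0` if
`Λ ≤ W_a`, otherwise `pair W_a cnt + 1`, where `cnt` counts the leaves `u` of the backward tree with
state `v` (with any state if `n ≤ v`) whose path to the root avoids the set of the kind. -/
def phT0 : ℕ := 2
/-- AVERAGE of kind `0` along point `j` of the walk. query `pair j (pair a (pair v x))`. -/
def phPJ0 : ℕ := 3
/-- MAJORITY of kind `0`. query `pair a (pair v x)`, value `P0 a v x`. -/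
def phP0 : ℕ := 4
/-- PRODUCT of kind `0`. query `pair v x`, value `G0 v x`. -/
def phPr0 : ℕ := 5
/-- `Z1`. query `x`, value `1` if `Z1 x`, otherwise `0`. -/
def phZ1 : ℕ := 6
/-- TOUR of kind `1`. -/
def phT1 : ℕ := 7
/-- LOSS TOUR. query `pair a (pair x z)`; the token is `(x, z, tape)`, the tape including block `a`.
Value: the number of two-phase alive leaves avoiding `Z1` if `Λ ≤ W_{a+1}`, otherwise `0`. -/
def phLT : ℕ := 8
/-- AVERAGE of the loss along point `j` of the walk. query `pair j x`. -/
def phLJ : ℕ := 9
/-- MAJORITY for the loss and `Zst`, `Zs`. query `x`, value `[Zst x] + 2 * [Zs x]`. -/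
def phZZ : ℕ := 10
/-- TOUR of kind `2`. -/
def phT2 : ℕ := 11
/-- AVERAGE of kind `2`. -/
def phPJ2 : ℕ := 12
/-- MAJORITY of kind `2`. -/
def phP2 : ℕ := 13
/-- PRODUCT of kind `2`. query `pair v x`, value `G2 v x`. -/
def phPr2 : ℕ := 14
/-- `H`. query `pair v x`, value `(Hm v x + Ω).toNat`. -/
def phH : ℕ := 15
/-- The Neumann series. query `pair v x`, value `(Xc v x + Ω).toNat`. -/
def phX : ℕ := 16
/-- `Phi`. query `pair v x`, value `(Phi v x - 1).toNat`. -/
def phPhi : ℕ := 17
/-- Number of phases of a stage. -/
def nph : ℕ := 18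

/-! ### Static digits -/

/-- Static digits `0, 1, ...`: `n, q, b, r, rk, K, Th1, D, JF, JN`, then `Th` (10), `cmax` (11, all
`c v < cmax` in the first `S` stages), `nd` (12, number of base `q` digits of a state), `Lam` (13),
`Q` (14, prime field of the sampler), `DC` (15, number of chunks of the label tape), `c0` (16,
digits per chunk), `lw` (17, the walk has the points `0, ..., lw`), `Om` (18, offset of coded
integers), `m` (19, number of phases), `S` (20, number of stages). Offsets: `o s i`, `i < 6`, is
static digit `64 + 6 * s + i`. The digits of the seed of the sampler start at `64 + 6 * S`. -/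
def stOff (s i : ℕ) : ℕ := 64 + 6 * s + i

/-- First static digit of the sampler seed: `u_c` is digit `stW S + c` (`c < 2 * DC`), the pair
`(x, y)` of step `i < lw` is in the digits `stW S + 2 * DC + 2 * i` and `... + 1`, the pair `(a, b)`
of the hash function `j < JH` is in the digits `stW S + 2 * DC + 2 * lw + 2 * j` and `... + 1`. -/
def stW (S : ℕ) : ℕ := 64 + 6 * S

/-- Number of label digits of one level: `10 t`, `t = 31`. -/
def lab : ℕ := 310

end Vale.Agent.P313.NW.BP
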