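import Vale.Agent.P313.NW.BP.Phv

/-!
Valid queries and the value of every phase on valid queries.
-/

namespace Vale.Agent.P313.NW.BP

open Finset

/-- Components of queries. -/
def q1 (q : ℕ) : ℕ := q.unpair.1
def q2 (q : ℕ) : ℕ := q.unpair.2.unpair.1
def q3 (q : ℕ) : ℕ := q.unpair.2.unpair.2.unpair.1
def q4 (q : ℕ) : ℕ := q.unpair.2.unpair.2.unpair.2
/-- Last components of queries with `2` or `3` components. -/
def e2 (q : ℕ) : ℕ := q.unpair.2
def e3 (q : ℕ) : ℕ := q.unpair.2.unpair.2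

@[simp] theorem q1_pair (a b : ℕ) : q1 (Nat.pair a b) = a := by simp [q1]
@[simp] theorem e2_pair (a b : ℕ) : e2 (Nat.pair a b) = b := by simp [e2]
@[simp] theorem q2_pair (a b c : ℕ) : q2 (Nat.pair a (Nat.pair b c)) = b := by simp [q2]
@[simp] theorem e3_pair (a b c : ℕ) : e3 (Nat.pair a (Nat.pair b c)) = c := by simp [e3]
@[simp] theorem q3_pair (a b c d : ℕ) : q3 (Nat.pair a (Nat.pair b (Nat.pair c d))) = c := by
  simp [q3]
@[simp] theorem q4_pair (a b c d : ℕ) : q4 (Nat.pair a (Nat.pair b (Nat.pair c d))) = d := by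
  simp [q4]

variable (p : Par2) (S : Sem) (T : TSem) (w : ℕ → ℕ) (d : SD) (o : ℕ → ℕ)

/-- Valid queries of the phases. -/
def vq (ph q : ℕ) : Prop :=
  if ph = phData then q1 q < 3 ∧ q2 q < p.n ∧ e3 q < p.n
  else if ph = phHop then
    (q1 q = 0 ∧ q2 q < p.n ∧ e3 q < p.q ^ d.c (q2 q)) ∨
    (q1 q = 1 ∧ q2 q < p.n ∧ e3 q < p.q ^ p.cmax * p.n * p.q ^ p.b)
  else if ph = phT0 ∨ ph = phT1 ∨ ph = phT2 then
    q1 q < p.r ∧ q2 q ≤ p.n ∧ q3 q < p.n ∧ q4 q < p.q ^ d.c (q3 q)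
  else if ph = phPJ0 ∨ ph = phPJ2 then
    q1 q ≤ p.lw ∧ q2 q < p.r ∧ q3 q < p.n ∧ q4 q < p.n
  else if ph = phP0 ∨ ph = phP2 then q1 q < p.r ∧ q2 q < p.n ∧ e3 q < p.n
  else if ph = phZ1 ∨ ph = phZZ then q < p.n
  else if ph = phLT then q1 q < p.r ∧ q2 q < p.n ∧ e3 q < p.q ^ d.c (q2 q)
  else if ph = phLJ then q1 q ≤ p.lw ∧ e2 q < p.n
  else q1 q < p.n ∧ e2 q < p.n -- `G0`, `G2`, `H`, `X`, `Phi`

open Classical in
/-- Values of the phases on valid queries, `o` are the offsets of the stage, `w` is the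
seed of the sampler, `t` is the tape. -/
noncomputable def phVal (ph q : ℕ) (t : Tp) : ℕ :=
  if ph = phData then
    (if q1 q = 0 then d.A (q2 q) (e3 q) else if q1 q = 1 then d.c (q2 q) else d.k (q2 q))
  else if ph = phHop then
    (if q1 q = 0 then Nat.pair (hopF p.toPar d (q2 q) (e3 q)).1 (hopF p.toPar d (q2 q) (e3 q)).2
    else if e3 q < cumC p.toPar d (q2 q) p.n then
      Nat.pair (hopB p.toPar d (q2 q) (e3 q)).1 (hopB p.toPar d (q2 q) (e3 q)).2 + 1 else 0)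
  else if ph = phT0 then T.tour p.Lam d (fun _ => False) (q1 q) (q2 q) (q3 q) (q4 q) t
  else if ph = phPJ0 then avgV p T w d (fun _ => False) (o 0) (q1 q) (q2 q) (q3 q) (q4 q) t
  else if ph = phP0 then P0 p.toPar S d o (q1 q) (q2 q) (e3 q)
  else if ph = phPr0 then G0 p.toPar S d o (q1 q) (e2 q)
  else if ph = phZ1 then (if Z1 p.toPar S d o q then 1 else 0)
  else if ph = phT1 then
    T.tour p.Lam d (Z1 p.toPar S d o) (q1 q) (q2 q) (q3 q) (q4 q) t
  else if ph = phLT then T.Lo d (Z1 p.toPar S d o) (q1 q) (q2 q) (e3 q) t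
  else if ph = phLJ then avgL p T w d (Z1 p.toPar S d o) (o 2) (q1 q) (e2 q) t
  else if ph = phZZ then
    (if Zst p.toPar S d o q then 1 else 0) + 2 * (if Zs p.toPar S d o q then 1 else 0)
  else if ph = phT2 then
    T.tour p.Lam d (Zs p.toPar S d o) (q1 q) (q2 q) (q3 q) (q4 q) t
  else if ph = phPJ2 then
    avgV p T w d (Zs p.toPar S d o) (o 3) (q1 q) (q2 q) (q3 q) (q4 q) t
  else if ph = phP2 then P2 p.toPar S d o (q1 q) (q2 q) (e3 q)
  else if ph = phPr2 then G2 p.toPar S d o (q1 q) (e2 q)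
  else if ph = phH then (Hm p.toPar S d o (q1 q) (e2 q) + p.Om).toNat
  else if ph = phX then (Xc p.toPar S d o (q1 q) (e2 q) + p.Om).toNat
  else (Phi p.toPar S d o (q1 q) (e2 q) - 1).toNat

/-- A tape with the right format. -/
def TpOk (t : Tp) : Prop := (∀ j < p.L, t j < p.q) ∧ ∀ j, p.L ≤ j → t j = 0

/-- The answers `V ph q t` of the phases below `k` of a stage are the canonical ones. -/
def Ans (V : ℕ → ℕ → Tp → ℕ) (k : ℕ) : Prop :=
  ∀ ph < k, ∀ q, vq p d ph q → ∀ t, TpOk p t → V ph q t = phVal p S T w d o ph q t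

end Vale.Agent.P313.NW.BP
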